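import Vale.Agent.P232.Rigid.Planar.Lines
import Vale.Agent.P232.Rigid.Seq
import Vale.Agent.P232.Rigid.Bathtub

/-!
# P232, rigidity: planar approximating sequences

Exchange of the coordinates, and convergence in mean of the line masses.
-/

namespace Vale.Agent.P232.Rigid

noncomputable section

open MeasureTheory Set Filter Topology

namespace Planar

/-- A bounded measurable planar function. -/
def Bd2 (F : ℝ × ℝ → ℝ) : Prop := Measurable F ∧ ∃ C, ∀ q, |F q| ≤ C

variable {S : Set (ℝ × ℝ)} {m : ℕ → ℝ × ℝ → ℝ} {P : ℝ}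

lemma chi2_mem (q : ℝ × ℝ) : 0 ≤ chi2 S q ∧ chi2 S q ≤ 1 := by
  by_cases h : q ∈ S <;> simp [chi2, h]

lemma abs_chi2 (q : ℝ × ℝ) : |chi2 S q| ≤ 1 :=
  abs_le.2 ⟨by linarith [(chi2_mem (S := S) q).1], (chi2_mem q).2⟩

lemma measurable_chi2 (hm : MeasurableSet S) : Measurable (chi2 S) :=
  measurable_const.indicator hm

lemma measurableSet_square : MeasurableSet square := measurableSet_Ico.prod measurableSet_Ico

lemma volume_square : volume square = 1 := by
  rw [square, Measure.volume_eq_prod, Measure.prod_prod]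
  simp

lemma int01_eq (f : ℝ → ℝ) : ∫ x in Ico (0 : ℝ) 1, f x = ∫ x in (0 : ℝ)..1, f x := by
  rw [intervalIntegral.integral_of_le zero_le_one, integral_Ico_eq_integral_Ioc]

lemma Bd2.integrableOn {F : ℝ × ℝ → ℝ} (h : Bd2 F) : IntegrableOn F square := by
  obtain ⟨C, hC⟩ := h.2
  have : Fact (volume square < ⊤) := ⟨by rw [volume_square]; simp⟩
  exact Integrable.of_bound h.1.aestronglyMeasurable C
    (Eventually.of_forall fun p => by simpa using hC p)

lemma setIntegral_square {F : ℝ × ℝ → ℝ} (h : Bd2 F) : ∫ q in square, F q = area2 F := by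
  have h1 : IntegrableOn F (Ico (0 : ℝ) 1 ×ˢ Ico (0 : ℝ) 1) (volume.prod volume) := h.integrableOn
  rw [square, Measure.volume_eq_prod, setIntegral_prod F h1, area2, ← int01_eq]
  exact setIntegral_congr_fun measurableSet_Ico fun y _ => int01_eq _

lemma measurable_int01 {F : ℝ × ℝ → ℝ} (hF : Measurable F) :
    Measurable fun y => ∫ z in (0 : ℝ)..1, F (y, z) := by
  simp only [intervalIntegral.integral_of_le zero_le_one]
  exact hF.stronglyMeasurable.integral_prod_right'
    (ν := volume.restrict (Ioc (0 : ℝ) 1)) |>.measurable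

lemma measurable_marg2 (hm : MeasurableSet S) : Measurable (marg2 S) :=
  measurable_int01 (measurable_chi2 hm)

lemma marg2_mem (t : ℝ) : marg2 S t ∈ Icc (0 : ℝ) 1 :=
  ⟨intervalIntegral.integral_nonneg zero_le_one fun z _ => (chi2_mem _).1,
    (le_abs_self _).trans (abs_int01_le fun z => abs_chi2 _)⟩

lemma marg2_periodic (hS : PerSet2 S) : Function.Periodic (marg2 S) 1 := fun t => by
  refine intervalIntegral.integral_congr fun z _ => ?_
  exact indicator_eq_indicator (hS t z).1 rfl

lemma integral_marg2 (hm : MeasurableSet S) : ∫ t in (0 : ℝ)..1, marg2 S t = vol2 S := by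
  show area2 (chi2 S) = vol2 S
  rw [← setIntegral_square ⟨measurable_chi2 hm, 1, abs_chi2⟩, chi2, setIntegral_indicator hm,
    setIntegral_const, smul_eq_mul, mul_one, inter_comm]
  rfl

lemma bd2_sub (hm : MeasurableSet S) {f : ℝ × ℝ → ℝ} (hf : Measurable f)
    (hf01 : ∀ q, f q ∈ Icc (0 : ℝ) 1) : Bd2 fun q => |f q - chi2 S q| :=
  ⟨(hf.sub (measurable_chi2 hm)).abs, 1, fun q => by
    rw [abs_abs]
    exact Approx.abs_sub_unit (hf01 q).1 (hf01 q).2 (chi2_mem _).1 (chi2_mem _).2⟩

/-- The line masses are at most as far in mean as the functions. -/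
lemma integral_line_sub_le (hm : MeasurableSet S) {f : ℝ × ℝ → ℝ} (hf : Measurable f)
    (hf01 : ∀ q, f q ∈ Icc (0 : ℝ) 1) :
    ∫ y in (0 : ℝ)..1, |(∫ z in (0 : ℝ)..1, f (y, z)) - marg2 S y| ≤
      ∫ q in square, |f q - chi2 S q| := by
  have hb := bd2_sub hm hf hf01
  obtain ⟨hbm, C, hC⟩ := hb
  rw [setIntegral_square ⟨hbm, C, hC⟩, area2]
  have hl : ∀ y, |∫ z in (0 : ℝ)..1, f (y, z)| ≤ 1 := fun y => abs_int01_le fun z =>
    abs_le.2 ⟨by linarith [(hf01 (y, z)).1], (hf01 _).2⟩
  refine intervalIntegral.integral_mono_on zero_le_one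
    (intervalIntegrable_of_bound ((measurable_int01 hf).sub (measurable_marg2 hm)).abs (C := 2)
      (fun y => by
        rw [abs_abs]
        refine (abs_sub _ _).trans ?_
        linarith [hl y, abs_le.2 ⟨by linarith [(marg2_mem (S := S) y).1], (marg2_mem (S := S) y).2⟩])
      0 1)
    (intervalIntegrable_of_bound (measurable_int01 hbm) (fun y => abs_int01_le fun z => hC _) 0 1)
    fun y _ => ?_
  have i1 : IntervalIntegrable (fun z => f (y, z)) volume 0 1 :=
    intervalIntegrable_of_bound (hf.comp measurable_prodMk_left) (C := 1)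
      (fun z => show |f (y, z)| ≤ 1 from
        abs_le.2 ⟨by linarith [(hf01 (y, z)).1], (hf01 _).2⟩) 0 1
  have i2 : IntervalIntegrable (fun z => chi2 S (y, z)) volume 0 1 :=
    intervalIntegrable_of_bound ((measurable_chi2 hm).comp measurable_prodMk_left)
      (fun z => abs_chi2 _) 0 1
  rw [marg2, ← intervalIntegral.integral_sub i1 i2]
  exact intervalIntegral.abs_integral_le_integral_abs zero_le_one

/-- The line masses converge in mean. -/
lemma tendsto_lineY (hA : Appr2 S m P) (hm : MeasurableSet S) :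
    Tendsto (fun n => ∫ y in (0 : ℝ)..1, |lineY (m n) y - marg2 S y|) atTop (𝓝 0) :=
  squeeze_zero (fun n => intervalIntegral.integral_nonneg zero_le_one fun t _ => abs_nonneg _)
    (fun n => integral_line_sub_le hm (hA.dens n).smooth.continuous.measurable (hA.dens n).mem)
    hA.conv

/-- A subsequence still approximates. -/
lemma comp_appr2 (hA : Appr2 S m P) {φ : ℕ → ℕ} (hφ : StrictMono φ) :
    Appr2 S (fun n => m (φ n)) P :=
  ⟨fun _ => hA.dens _, hA.area_tendsto.comp hφ.tendsto_atTop, hA.err.comp hφ.tendsto_atTop,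
    hA.conv.comp hφ.tendsto_atTop, fun δ hδ => hφ.tendsto_atTop.eventually (hA.tv δ hδ)⟩

lemma perSet2_swap (hS : PerSet2 S) : PerSet2 (Prod.swap ⁻¹' S) := fun y z =>
  ⟨(hS z y).2, (hS z y).1⟩

lemma dens2_swap {f : ℝ × ℝ → ℝ} (hf : Dens2 f) : Dens2 (f ∘ Prod.swap) :=
  ⟨hf.smooth.comp (contDiff_snd.prodMk contDiff_fst),
    fun y z => ⟨(hf.per z y).2, (hf.per z y).1⟩, fun p => hf.mem _⟩

lemma setIntegral_square_swap (F : ℝ × ℝ → ℝ) :
    ∫ q in square, F q.swap = ∫ q in square, F q := by
  have hp : MeasurePreserving (Prod.swap : ℝ × ℝ → ℝ × ℝ) volume volume :=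
    Measure.measurePreserving_swap
  have h := hp.setIntegral_preimage_emb MeasurableEquiv.prodComm.measurableEmbedding F square
  rwa [show (Prod.swap : ℝ × ℝ → ℝ × ℝ) ⁻¹' square = square from preimage_swap_prod _ _] at h

lemma vol2_swap (hm : MeasurableSet S) : vol2 (Prod.swap ⁻¹' S) = vol2 S := by
  have hp : MeasurePreserving (Prod.swap : ℝ × ℝ → ℝ × ℝ) volume volume :=
    Measure.measurePreserving_swap
  have e : Prod.swap ⁻¹' S ∩ square = Prod.swap ⁻¹' (S ∩ square) := by
    rw [preimage_inter, square, preimage_swap_prod]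
  rw [vol2, vol2, e, hp.measure_preimage (hm.inter measurableSet_square).nullMeasurableSet]

lemma lineY_swap (f : ℝ × ℝ → ℝ) : lineY (f ∘ Prod.swap) = lineZ f := rfl

lemma lineZ_swap (f : ℝ × ℝ → ℝ) : lineZ (f ∘ Prod.swap) = lineY f := rfl

lemma err2_swap {f : ℝ × ℝ → ℝ} (hf : Dens2 f) :
    area2 (fun p => (f ∘ Prod.swap) p * (1 - (f ∘ Prod.swap) p)) =
      area2 fun p => f p * (1 - f p) :=
  area2_swap (continuous_defect hf)

/-- The exchanged sequence approximates the exchanged set. -/
lemma swap_appr2 (hA : Appr2 S m P) (hm : MeasurableSet S) :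
    Appr2 (Prod.swap ⁻¹' S) (fun n => m n ∘ Prod.swap) P := by
  refine ⟨fun n => dens2_swap (hA.dens n), ?_, ?_, ?_, fun δ hδ => ?_⟩
  · rw [vol2_swap hm]
    exact hA.area_tendsto.congr fun n => (area2_swap (hA.dens n).smooth.continuous).symm
  · exact hA.err.congr fun n => (err2_swap (hA.dens n)).symm
  · exact hA.conv.congr fun n => (setIntegral_square_swap fun q => |m n q - chi2 S q|).symm
  · filter_upwards [hA.tv δ hδ] with n hn
    rwa [tv2_swap (hA.dens n).smooth]

/-- A periodic planar set null on the square is null. -/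
lemma null_of_square {N : Set (ℝ × ℝ)} (hN : PerSet2 N) (h : volume (N ∩ square) = 0) :
    volume N = 0 :=
  ae_eq_empty.1 (ae_eq_of_square hN (fun _ _ => ⟨Iff.rfl, Iff.rfl⟩) (ae_eq_empty.2 (by
    rwa [Measure.restrict_apply' measurableSet_square])))

end Planar

end

end Vale.Agent.P232.Rigid
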