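import Vale.Agent.P232.Rigid.Planar.Basic
import Vale.Agent.P232.Rigid.ProfileEq

/-!
# P232, rigidity: a planar minimiser cut in both directions is a disc

The calibration `x / a` of the line masses forces their greatest value to be the diameter of the
disc, and then their profile is the semicircle.
-/

namespace Vale.Agent.P232.Rigid

noncomputable section

open MeasureTheory Set Filter Topology Real

namespace Planar

variable {S : Set (ℝ × ℝ)} {m : ℕ → ℝ × ℝ → ℝ} {P : ℝ}

/-- The two-dimensional norm of the means along one line is at most the mean of the gradient. -/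
lemma line_grad {f : ℝ × ℝ → ℝ} (hf : Dens2 f) (y : ℝ) :
    √(((∫ z in (0 : ℝ)..1, |fderiv ℝ f (y, z) (0, 1)|) / 2) ^ 2 + (lineD f y / 2) ^ 2) ≤
      (∫ z in (0 : ℝ)..1, grad2 f (y, z)) / 2 := by
  have hl : Continuous fun q : ℝ × ℝ => ((y, q.2) : ℝ × ℝ) := by fun_prop
  have h := Axis.sqrt_le_area2
    (g := fun q => |fderiv ℝ f (y, q.2) (0, 1)|) (h := fun q => fderiv ℝ f (y, q.2) (1, 0))
    ((continuous_d hf _).abs.comp hl) ((continuous_d hf _).comp hl)
  simp only [area2, intervalIntegral.integral_const, sub_zero, one_smul, sq_abs] at h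
  rw [div_pow, div_pow, ← add_div, Real.sqrt_div (by positivity), Real.sqrt_sq zero_le_two,
    lineD]
  simp only [grad2]
  rw [show (fun z => √(fderiv ℝ f (y, z) (1, 0) ^ 2 + fderiv ℝ f (y, z) (0, 1) ^ 2)) =
    fun z => √(fderiv ℝ f (y, z) (0, 1) ^ 2 + fderiv ℝ f (y, z) (1, 0) ^ 2) from
    funext fun z => by rw [add_comm]]
  linarith

/-- A line with mass at least `ρ` varies by one, up to its defect and its value on a fixed line. -/
lemma line_var_ge {f : ℝ × ℝ → ℝ} (hf : Dens2 f) {ρ y : ℝ} (hρ : 0 < ρ) (hy : ρ ≤ lineY f y)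
    (z₀ : ℝ) :
    1 - (∫ z in (0 : ℝ)..1, f (y, z) * (1 - f (y, z))) / ρ - f (y, z₀) ≤
      (∫ z in (0 : ℝ)..1, |fderiv ℝ f (y, z) (0, 1)|) / 2 := by
  have hline : Continuous fun z => f (y, z) := hf.smooth.continuous.comp (by fun_prop)
  obtain ⟨z₁, -, hmax⟩ := isCompact_Icc.exists_isMaxOn (nonempty_Icc.2 zero_le_one)
    hline.continuousOn
  have hM : (1 - f (y, z₁)) * lineY f y ≤ ∫ z in (0 : ℝ)..1, f (y, z) * (1 - f (y, z)) := by
    rw [lineY, ← intervalIntegral.integral_const_mul]
    refine intervalIntegral.integral_mono_on zero_le_one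
      ((continuous_const.mul hline).intervalIntegrable _ _)
      ((hline.mul (continuous_const.sub hline)).intervalIntegrable _ _) fun z hz => ?_
    rw [mul_comm]
    have := hmax hz
    exact mul_le_mul_of_nonneg_left
      (by linarith [show f (y, z) ≤ f (y, z₁) from this]) (hf.mem _).1
  have h1 : 1 - f (y, z₁) ≤ (∫ z in (0 : ℝ)..1, f (y, z) * (1 - f (y, z))) / ρ := by
    rw [le_div_iff₀ hρ]
    exact le_trans (mul_le_mul_of_nonneg_left hy (sub_nonneg.2 (hf.mem _).2)) hM
  linarith [lineVar_ge' hf y z₀ z₁]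

/-- The slice inequality of the line masses when every line of the other direction can be empty. -/
lemma slice_bound (hA : Appr2 S m P) {z₀ : ℕ → ℝ}
    (hz : Tendsto (fun n => lineZ (m n) (z₀ n)) atTop (𝓝 0)) {g : ℝ → ℝ} (hg : Continuous g)
    (hg0 : g 0 = 0) (hg1 : ∀ x ∈ Ioc (0 : ℝ) 1, 0 ≤ g x ∧ g x ≤ 1) {δ : ℝ} (hδ : 0 < δ) :
    ∀ᶠ n in atTop, ∃ K : ℝ → ℝ, Continuous K ∧
      (∀ y, √(g (lineY (m n) y) ^ 2 + (lineD (m n) y / 2) ^ 2) ≤ K y) ∧
        ∫ y in (0 : ℝ)..1, K y ≤ P + δ := by
  obtain ⟨ρ, hρ, hsmall⟩ := Metric.continuousAt_iff.1 (hg.continuousAt (x := (0 : ℝ))) (δ / 4)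
    (by positivity)
  have he : ∀ᶠ n in atTop, area2 (fun p => m n p * (1 - m n p)) / ρ < δ / 4 :=
    (by simpa using hA.err.div_const ρ : Tendsto _ atTop (𝓝 (0 : ℝ))).eventually_lt_const
      (by positivity)
  filter_upwards [hA.tv (δ / 4) (by positivity), he,
    hz.eventually_lt_const (show (0 : ℝ) < δ / 4 by positivity)] with n htv hen hzn
  have hf := hA.dens n
  set f := m n
  set X : ℝ → ℝ := fun y =>
    δ / 4 + (∫ z in (0 : ℝ)..1, f (y, z) * (1 - f (y, z))) / ρ + f (y, z₀ n) with hX
  have hec : Continuous fun y => ∫ z in (0 : ℝ)..1, f (y, z) * (1 - f (y, z)) :=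
    intervalIntegral.continuous_parametric_intervalIntegral_of_continuous'
      (f := fun y z => f (y, z) * (1 - f (y, z))) (continuous_defect hf) 0 1
  have hfz : Continuous fun y => f (y, z₀ n) := hf.smooth.continuous.comp (by fun_prop)
  have hgc : Continuous fun y => (∫ z in (0 : ℝ)..1, grad2 f (y, z)) / 2 :=
    (intervalIntegral.continuous_parametric_intervalIntegral_of_continuous'
      (f := fun y z => grad2 f (y, z)) (continuous_grad2 hf.smooth) 0 1).div_const 2
  refine ⟨fun y => (∫ z in (0 : ℝ)..1, grad2 f (y, z)) / 2 + X y,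
    hgc.add ((continuous_const.add (hec.div_const ρ)).add hfz), fun y => ?_, ?_⟩
  · set T := (∫ z in (0 : ℝ)..1, |fderiv ℝ f (y, z) (0, 1)|) / 2
    set D := lineD f y / 2
    have hT : 0 ≤ T := div_nonneg (intervalIntegral.integral_nonneg zero_le_one
      fun _ _ => abs_nonneg _) zero_le_two
    have hE : 0 ≤ (∫ z in (0 : ℝ)..1, f (y, z) * (1 - f (y, z))) / ρ :=
      div_nonneg (intervalIntegral.integral_nonneg zero_le_one fun z _ =>
        mul_nonneg (hf.mem _).1 (sub_nonneg.2 (hf.mem _).2)) hρ.le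
    have hXy : δ / 4 ≤ X y := by
      simp only [hX]
      linarith [(hf.mem (y, z₀ n)).1]
    obtain ⟨hL0, hL1⟩ := lineY_mem hf y
    have hgy : 0 ≤ g (lineY f y) ∧ g (lineY f y) ≤ T + X y := by
      rcases hL0.eq_or_lt with h | h
      · rw [← h, hg0]
        exact ⟨le_rfl, by linarith⟩
      refine ⟨(hg1 _ ⟨h, hL1⟩).1, ?_⟩
      rcases lt_or_ge (lineY f y) ρ with hr | hr
      · have := hsmall (show dist (lineY f y) 0 < ρ by
          rwa [Real.dist_eq, sub_zero, abs_of_pos h])
        rw [Real.dist_eq, hg0, sub_zero] at this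
        linarith [le_abs_self (g (lineY f y))]
      · have : 1 - (∫ z in (0 : ℝ)..1, f (y, z) * (1 - f (y, z))) / ρ - f (y, z₀ n) ≤ T :=
          line_var_ge hf hρ hr (z₀ n)
        simp only [hX]
        linarith [(hg1 _ ⟨h, hL1⟩).2]
    refine le_trans ?_ (add_le_add_left (line_grad hf y) _)
    have hq : √(T ^ 2 + D ^ 2) ^ 2 = T ^ 2 + D ^ 2 := Real.sq_sqrt (by positivity)
    have hTle : T ≤ √(T ^ 2 + D ^ 2) := Real.le_sqrt_of_sq_le (by nlinarith)
    rw [Real.sqrt_le_left (add_nonneg (Real.sqrt_nonneg _) (by linarith))]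
    nlinarith [pow_le_pow_left₀ hgy.1 hgy.2 2, mul_le_mul_of_nonneg_right hTle
      (show 0 ≤ X y by linarith)]
  · have hXc : Continuous X := (continuous_const.add (hec.div_const ρ)).add hfz
    dsimp only
    rw [intervalIntegral.integral_add (f := fun y => (∫ z in (0 : ℝ)..1, grad2 f (y, z)) / 2)
      (g := X) (hgc.intervalIntegrable _ _) (hXc.intervalIntegrable _ _)]
    have e1 : ∫ y in (0 : ℝ)..1, (∫ z in (0 : ℝ)..1, grad2 f (y, z)) / 2 = tv2 f / 2 := by
      rw [intervalIntegral.integral_div]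
      rfl
    have e2 : ∫ y in (0 : ℝ)..1, X y =
        δ / 4 + area2 (fun p => f p * (1 - f p)) / ρ + lineZ f (z₀ n) := by
      simp only [hX]
      rw [intervalIntegral.integral_add
          (f := fun y => δ / 4 + (∫ z in (0 : ℝ)..1, f (y, z) * (1 - f (y, z))) / ρ)
          ((continuous_const.add (hec.div_const ρ)).intervalIntegrable _ _)
          (hfz.intervalIntegrable _ _),
        intervalIntegral.integral_add (f := fun _ => δ / 4) intervalIntegrable_const
          ((hec.div_const ρ).intervalIntegrable _ _), intervalIntegral.integral_div]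
      simp [area2, lineZ]
    rw [e1, e2]
    linarith

/-- A periodic function passes twice through the levels between its extremes. -/
lemma circuit_le {A D b : ℝ → ℝ} (hd : ∀ t, HasDerivAt A (D t) t) (hD : Continuous D)
    (hp : Function.Periodic A 1) (hb : Continuous b) (hb0 : ∀ x, 0 ≤ b x) (t₀ t₁ : ℝ) :
    2 * (∫ x in A t₀..A t₁, b x) ≤ ∫ t in (0 : ℝ)..1, b (A t) * |D t| := by
  have hA : Continuous A := continuous_iff_continuousAt.2 fun t => (hd t).continuousAt
  have hab : Continuous fun t => b (A t) * |D t| := (hb.comp hA).mul hD.abs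
  have hcD : Continuous fun t => b (A t) * D t := (hb.comp hA).mul hD
  have hDp : Function.Periodic D 1 := fun t =>
    (hd (t + 1)).unique (by
      have h' : HasDerivAt (fun u => A (u - 1)) (D t) (t + 1) := by
        refine HasDerivAt.comp_sub_const (t + 1) 1 ?_
        rw [add_sub_cancel_right]
        exact hd t
      simpa [funext fun u => hp.sub_eq u] using h')
  obtain ⟨s, hs, es⟩ := hp.exists_mem_Ico one_pos t₁ t₀
  have hcv : ∀ p q, ∫ t in p..q, b (A t) * D t = ∫ x in A p..A q, b x := fun p q =>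
    intervalIntegral.integral_comp_mul_deriv (fun t _ => hd t) hD.continuousOn hb
  have h1 : (∫ x in A t₀..A s, b x) ≤ ∫ t in t₀..s, b (A t) * |D t| := by
    rw [← hcv]
    exact intervalIntegral.integral_mono_on hs.1 (hcD.intervalIntegrable _ _)
      (hab.intervalIntegrable _ _) fun t _ => mul_le_mul_of_nonneg_left (le_abs_self _) (hb0 _)
  have h2 : -(∫ x in A s..A (t₀ + 1), b x) ≤ ∫ t in s..t₀ + 1, b (A t) * |D t| := by
    rw [← hcv, ← intervalIntegral.integral_neg]
    exact intervalIntegral.integral_mono_on hs.2.le (hcD.neg.intervalIntegrable _ _)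
      (hab.intervalIntegrable _ _) fun t _ => by
        show -(b (A t) * D t) ≤ _
        rw [← mul_neg]
        exact mul_le_mul_of_nonneg_left (neg_le_abs _) (hb0 _)
  rw [hp t₀, ← es, intervalIntegral.integral_symm, neg_neg] at h2
  rw [← es] at h1
  have hper : Function.Periodic (fun t => b (A t) * |D t|) 1 := fun t => by
    simp only [hp t, hDp t]
  have e := hper.intervalIntegral_add_eq t₀ 0
  rw [zero_add, ← intervalIntegral.integral_add_adjacent_intervals
    (hab.intervalIntegrable t₀ s) (hab.intervalIntegrable s _)] at e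
  linarith

lemma continuous_semicircle : Continuous fun t : ℝ => √(1 - t ^ 2) := by fun_prop

lemma integral_semicircle : ∫ t in (0 : ℝ)..1, √(1 - t ^ 2) = π / 4 := by
  have hc := continuous_semicircle
  have h1 : ∫ t in (-1 : ℝ)..0, √(1 - t ^ 2) = ∫ t in (0 : ℝ)..1, √(1 - t ^ 2) := by
    have h := intervalIntegral.integral_comp_neg (fun t : ℝ => √(1 - t ^ 2)) (a := 0) (b := 1)
    simpa using h.symm
  have h := integral_sqrt_one_sub_sq
  rw [← intervalIntegral.integral_add_adjacent_intervals (hc.intervalIntegrable (-1) 0)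
    (hc.intervalIntegrable 0 1), h1] at h
  linarith

lemma integral_semicircle_scale {a : ℝ} (ha : 0 < a) :
    ∫ x in (0 : ℝ)..a, √(1 - (x / a) ^ 2) = a * (π / 4) := by
  rw [intervalIntegral.integral_comp_div (fun t => √(1 - t ^ 2)) ha.ne', zero_div, div_self ha.ne',
    integral_semicircle, smul_eq_mul]

lemma integral_semicircle_cube :
    ∫ t in (0 : ℝ)..1, (1 - t ^ 2) * √(1 - t ^ 2) = 3 * π / 16 := by
  have hc : Continuous fun t : ℝ => (1 - t ^ 2) * √(1 - t ^ 2) := by fun_prop
  have hI : ∀ t ∈ Ioo (0 : ℝ) 1, HasDerivAt (fun t => t * ((1 - t ^ 2) * √(1 - t ^ 2)))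
      (4 * ((1 - t ^ 2) * √(1 - t ^ 2)) - 3 * √(1 - t ^ 2)) t := fun t ht => by
    have hp : 0 < 1 - t ^ 2 := by nlinarith [ht.1, ht.2]
    have h1 : HasDerivAt (fun t : ℝ => 1 - t ^ 2) (-(2 * t)) t := by
      simpa using (hasDerivAt_pow 2 t).const_sub 1
    refine ((hasDerivAt_id t).mul (h1.mul (h1.sqrt hp.ne'))).congr_deriv ?_
    have hs : √(1 - t ^ 2) ^ 2 = 1 - t ^ 2 := Real.sq_sqrt hp.le
    simp only [id_eq, Pi.mul_apply]
    field_simp
    rw [hs]
    ring
  have h := intervalIntegral.integral_eq_sub_of_hasDerivAt_of_le zero_le_one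
    (continuous_id.mul hc).continuousOn hI
    (((continuous_const.mul hc).sub (continuous_const.mul continuous_semicircle)).intervalIntegrable
      0 1)
  rw [intervalIntegral.integral_sub (f := fun t => 4 * ((1 - t ^ 2) * √(1 - t ^ 2)))
      (g := fun t => 3 * √(1 - t ^ 2)) ((continuous_const.mul hc).intervalIntegrable _ _)
      ((continuous_const.mul continuous_semicircle).intervalIntegrable _ _),
    intervalIntegral.integral_const_mul, intervalIntegral.integral_const_mul,
    integral_semicircle] at h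
  norm_num at h
  linarith

/-- The calibrated bound of the line masses. -/
lemma line_bound (hA : Appr2 S m P) {z₀ y₀ y₁ : ℕ → ℝ} {a : ℝ} (ha : 0 < a)
    (hz : Tendsto (fun n => lineZ (m n) (z₀ n)) atTop (𝓝 0))
    (hy₀ : Tendsto (fun n => lineY (m n) (y₀ n)) atTop (𝓝 0))
    (hy₁ : Tendsto (fun n => lineY (m n) (y₁ n)) atTop (𝓝 a))
    (hmax : ∀ n y, lineY (m n) y ≤ lineY (m n) (y₁ n)) {η : ℝ} (hη : 0 < η) (hη' : η < a / 2) :
    vol2 S / (a + η) + (a + η) * (π / 4) ≤ P + 5 * η := by
  set A := a + η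
  have hA0 : 0 < A := by positivity
  have hηA : η ≤ A := by linarith
  set g : ℝ → ℝ := fun x => min 1 (max 0 (x / η))
  set b : ℝ → ℝ := fun x => √(1 - (max x η / A) ^ 2) with hb
  have hbc : Continuous b := by fun_prop
  have hgc : Continuous g := by fun_prop
  have hsl := slice_bound hA hz hgc (by simp [g]) (fun x _ => ⟨le_min zero_le_one (le_max_left _ _),
    min_le_left _ _⟩) hη
  have hev := hsl.and ((hy₀.eventually_lt_const hη).and
    ((hy₁.eventually_lt_const (show a < A by linarith)).and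
      (hy₁.eventually_const_lt (show a - η < a by linarith))))
  have hlim : Tendsto (fun n => area2 (m n) / A + A * (π / 4) - 4 * η) atTop
      (𝓝 (vol2 S / A + A * (π / 4) - 4 * η)) :=
    ((hA.area_tendsto.div_const A).add_const _).sub_const _
  suffices h : ∀ᶠ n in atTop, area2 (m n) / A + A * (π / 4) - 4 * η ≤ P + η by
    linarith [le_of_tendsto hlim h]
  filter_upwards [hev] with n hn
  obtain ⟨⟨K, hK, hle, hKI⟩, h0, h1, h2⟩ := hn
  have hf := hA.dens n
  set L := lineY (m n)
  set D := lineD (m n)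
  have hLc : Continuous L := continuous_lineY hf
  have hbb : ∀ x, 0 ≤ b x := fun x => Real.sqrt_nonneg _
  have hpt : ∀ y, L y / A + b (L y) * |D y| / 2 ≤ K y := fun y => by
    have hLA : L y ≤ A := (hmax n y).trans h1.le
    have hL0 := (lineY_mem hf y).1
    refine le_trans (le_of_eq ?_) ((calib_pt (h := g (L y)) (b := b (L y)) (l := L y / A)
      (d := |D y| / 2) (le_min zero_le_one (le_max_left _ _)) ?_ ?_).trans ?_)
    · ring
    · refine pow_le_one₀ (hbb _) ?_
      exact Real.sqrt_le_one.2 (by linarith [sq_nonneg (max (L y) η / A)])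
    · have hM : max (L y) η / A ≤ 1 := (div_le_one hA0).2 (max_le hLA hηA)
      have hsq : b (L y) ^ 2 = 1 - (max (L y) η / A) ^ 2 := Real.sq_sqrt (sub_nonneg.2
        (pow_le_one₀ (div_nonneg (hη.le.trans (le_max_right _ _)) hA0.le) hM))
      rw [hsq]
      have e : L y / A = g (L y) * (max (L y) η / A) := by
        simp only [g]
        rw [max_eq_right (div_nonneg hL0 hη.le)]
        rcases le_total (L y) η with c | c
        · rw [max_eq_right c, min_eq_right ((div_le_one hη).2 c)]
          field_simp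
        · rw [max_eq_left c, min_eq_left ((one_le_div hη).2 c), one_mul]
      rw [e]
      ring_nf
      rfl
    · rw [div_pow, sq_abs, ← div_pow]
      exact hle y
  have hDc : Continuous D := continuous_lineD hf
  have hab : Continuous fun y => b (L y) * |D y| := (hbc.comp hLc).mul hDc.abs
  have hI := intervalIntegral.integral_mono_on (μ := volume) (f := fun y => L y / A + b (L y) * |D y| / 2)
    zero_le_one (((hLc.div_const A).add (hab.div_const 2)).intervalIntegrable 0 1)
    (hK.intervalIntegrable 0 1) fun y _ => hpt y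
  rw [intervalIntegral.integral_add ((hLc.div_const A).intervalIntegrable _ _)
    ((hab.div_const 2).intervalIntegrable _ _), intervalIntegral.integral_div,
    intervalIntegral.integral_div, show ∫ y in (0 : ℝ)..1, L y = area2 (m n) from rfl] at hI
  have hc := circuit_le (hasDerivAt_lineY hf) hDc (lineY_periodic hf) hbc hbb (y₀ n) (y₁ n)
  -- the part of the quarter disc between the extremes
  set f₀ := L (y₀ n)
  set a₀ := L (y₁ n)
  have hf0 : 0 ≤ f₀ := (lineY_mem hf _).1
  have hci : ∀ p q : ℝ, IntervalIntegrable b volume p q := fun p q => hbc.intervalIntegrable p q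
  have hb1 : ∀ x, b x ≤ 1 := fun x =>
    Real.sqrt_le_one.2 (by linarith [sq_nonneg (max x η / A)])
  have hshort : ∀ p q : ℝ, p ≤ q → (∫ x in p..q, b x) ≤ q - p := fun p q h => by
    simpa using intervalIntegral.integral_mono_on (μ := volume) h (hci p q)
      intervalIntegrable_const fun x _ => hb1 x
  have hsc : Continuous fun x : ℝ => √(1 - (x / A) ^ 2) := by fun_prop
  have hbig : A * (π / 4) ≤ (∫ x in (0 : ℝ)..A, b x) + η := by
    rw [← integral_semicircle_scale hA0, ← intervalIntegral.integral_add_adjacent_intervals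
      (hsc.intervalIntegrable 0 η) (hsc.intervalIntegrable η A),
      ← intervalIntegral.integral_add_adjacent_intervals (hci 0 η) (hci η A)]
    have e : ∫ x in η..A, √(1 - (x / A) ^ 2) = ∫ x in η..A, b x :=
      intervalIntegral.integral_congr fun x hx => by
        rw [uIcc_of_le hηA] at hx
        simp only [hb, max_eq_left hx.1]
    have e1 : ∫ x in (0 : ℝ)..η, √(1 - (x / A) ^ 2) ≤ η := by
      simpa using intervalIntegral.integral_mono_on (μ := volume) hη.le
        (hsc.intervalIntegrable 0 η) intervalIntegrable_const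
        fun x _ => (Real.sqrt_le_one.2 (by linarith [sq_nonneg (x / A)]) : _ ≤ (1 : ℝ))
    have e2 : 0 ≤ ∫ x in (0 : ℝ)..η, b x :=
      intervalIntegral.integral_nonneg hη.le fun x _ => hbb x
    linarith
  rw [← intervalIntegral.integral_add_adjacent_intervals (hci 0 f₀) (hci f₀ A),
    ← intervalIntegral.integral_add_adjacent_intervals (hci f₀ a₀) (hci a₀ A)] at hbig
  change 2 * (∫ x in f₀..a₀, b x) ≤ ∫ t in (0 : ℝ)..1, b (L t) * |D t| at hc
  linarith [hshort 0 f₀ hf0, hshort a₀ A h1.le]

/-- When a line of each direction can be empty the greatest line mass is the diameter of the disc. -/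
lemma top_eq (hA : Appr2 S m P) (hP : P ≤ √(π * vol2 S)) {z₀ y₀ y₁ : ℕ → ℝ} {a : ℝ} (ha : 0 < a)
    (hz : Tendsto (fun n => lineZ (m n) (z₀ n)) atTop (𝓝 0))
    (hy₀ : Tendsto (fun n => lineY (m n) (y₀ n)) atTop (𝓝 0))
    (hy₁ : Tendsto (fun n => lineY (m n) (y₁ n)) atTop (𝓝 a))
    (hmax : ∀ n y, lineY (m n) y ≤ lineY (m n) (y₁ n)) (hv : 0 < vol2 S) :
    a = 2 * √(vol2 S / π) := by
  set v := vol2 S
  have h : v / a + a * (π / 4) ≤ P := by
    have hc1 : Tendsto (fun η : ℝ => v / (a + η) + (a + η) * (π / 4)) (𝓝 0)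
        (𝓝 (v / a + a * (π / 4))) :=
      by
      have : ContinuousAt (fun η : ℝ => v / (a + η) + (a + η) * (π / 4)) 0 :=
        ((continuousAt_const.div (continuousAt_const.add continuousAt_id) (by simpa using ha.ne')).add
          ((continuousAt_const.add continuousAt_id).mul continuousAt_const))
      simpa using this.tendsto
    have hc2 : Tendsto (fun η : ℝ => P + 5 * η) (𝓝 0) (𝓝 P) :=
      Continuous.tendsto' (by fun_prop) _ _ (by simp)
    refine le_of_tendsto_of_tendsto (b := 𝓝[>] (0 : ℝ)) (hc1.mono_left nhdsWithin_le_nhds)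
      (hc2.mono_left nhdsWithin_le_nhds) ?_
    filter_upwards [self_mem_nhdsWithin,
      nhdsWithin_le_nhds (eventually_lt_nhds (show (0 : ℝ) < a / 2 by positivity))] with η h0 h1
    exact line_bound hA ha hz hy₀ hy₁ hmax h0 h1
  set r := √(v / π)
  have hr : r ^ 2 = v / π := Real.sq_sqrt (by positivity)
  have hvr : v = π * r ^ 2 := by rw [hr]; field_simp
  have hPr : √(π * v) = π * r := by
    rw [hvr, ← mul_assoc, ← pow_two, ← mul_pow, Real.sqrt_sq (by positivity)]
  rw [hPr] at hP
  have key := mul_le_mul_of_nonneg_left (h.trans hP) ha.le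
  rw [mul_add, mul_div_cancel₀ _ ha.ne', hvr] at key
  have h0 : π * (a / 2 - r) ^ 2 ≤ 0 := by linarith
  have := pow_eq_zero_iff two_ne_zero |>.1
    (le_antisymm (nonpos_of_mul_nonpos_right (by linarith) Real.pi_pos) (sq_nonneg (a / 2 - r)))
  linarith

/-- Cut in both directions, the second moment of the line masses is that of the disc. -/
theorem cut_moment (hm : MeasurableSet S) (hS : PerSet2 S) (hA : Appr2 S m P)
    (hP : P ≤ √(π * vol2 S)) (hv : 0 < vol2 S) (hv' : π * vol2 S ≤ 1)
    {z₀ y₀ y₁ : ℕ → ℝ} {a : ℝ}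
    (hz : Tendsto (fun n => lineZ (m n) (z₀ n)) atTop (𝓝 0))
    (hy₀ : Tendsto (fun n => lineY (m n) (y₀ n)) atTop (𝓝 0))
    (hy₁ : Tendsto (fun n => lineY (m n) (y₁ n)) atTop (𝓝 a))
    (hmax : ∀ n y, lineY (m n) y ≤ lineY (m n) (y₁ n)) :
    ∃ c, moment (marg2 S) c ≤ π * √(vol2 S / π) ^ 4 / 4 := by
  set v := vol2 S with hvdef
  have hva : v ≤ a := by
    refine le_of_tendsto_of_tendsto' hA.area_tendsto hy₁ fun n => ?_
    simpa [area2, lineY] using intervalIntegral.integral_mono_on (μ := volume) zero_le_one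
      ((continuous_lineY (hA.dens n)).intervalIntegrable 0 1) intervalIntegrable_const
      fun y _ => hmax n y
  have ha : 0 < a := hv.trans_le hva
  have he := top_eq hA hP ha hz hy₀ hy₁ hmax hv
  set r := √(v / π)
  have hr : r ^ 2 = v / π := Real.sq_sqrt (by positivity)
  have hvr : v = π * r ^ 2 := by rw [hr]; field_simp
  have hPr : √(π * v) = π * r := by
    rw [hvr, ← mul_assoc, ← pow_two, ← mul_pow, Real.sqrt_sq (by positivity)]
  have hr0 : 0 < r := by linarith
  have hπ := Real.pi_gt_three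
  have hr1 : π * r ≤ 1 := hPr ▸ Real.sqrt_le_one.2 hv'
  have hr2 : r ≤ 1 / 3 := by nlinarith
  have hRd : ∀ x ∈ Ioo (0 : ℝ) a, HasDerivAt (fun x => a / 2 * √(1 - (x / a) ^ 2))
      (-(1 / a * x) / (2 * (1 * √(1 ^ 2 - (1 / a * x) ^ 2)))) x := fun x hx => by
    have ht : x / a < 1 := (div_lt_one ha).2 hx.2
    have hp : 0 < 1 - (x / a) ^ 2 := by nlinarith [div_nonneg hx.1.le ha.le]
    have h1 : HasDerivAt (fun x : ℝ => 1 - (x / a) ^ 2) (-(2 * (x / a) * (1 / a))) x := by
      simpa using (((hasDerivAt_id x).div_const a).pow 2).const_sub 1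
    refine ((h1.sqrt hp.ne').const_mul (a / 2)).congr_deriv ?_
    rw [one_pow, show 1 / a * x = x / a by ring]
    have := (Real.sqrt_pos.2 hp).ne'
    field_simp
  have hx : Extremal (fun _ => 1) (1 / a) a v (π * r)
      (fun x => a / 2 * √(1 - (x / a) ^ 2)) :=
    { a_pos := ha
      a_le := by linarith
      H_nonneg := by positivity
      h_cont := continuousOn_const
      h_nonneg := fun _ => zero_le_one
      line_lt := fun x hx => by rw [div_mul_eq_mul_div, one_mul, div_lt_one ha]; exact hx.2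
      line_top := by rw [div_mul_cancel₀ _ ha.ne']
      R_cont := (by fun_prop : Continuous fun x => a / 2 * √(1 - (x / a) ^ 2)).continuousOn
      R_top := by rw [div_self ha.ne']; simp
      R_half := by simp; linarith
      R_deriv := hRd
      vol_eq := by
        rw [intervalIntegral.integral_const_mul, integral_semicircle_scale ha, hvr, he]
        ring
      bound_eq := by
        simp only [div_one, show ∀ x : ℝ, 1 / a * x = x / a from fun x => by ring]
        rw [integral_semicircle_scale ha, hvr, he]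
        field_simp
        ring }
  obtain ⟨c, hc⟩ := profile_moment hx (A := fun n => lineY (m n)) (D := fun n => lineD (m n))
    (A' := marg2 S) (fun n => lineY_periodic (hA.dens n))
    (fun n => hasDerivAt_lineY (hA.dens n)) (fun n => continuous_lineD (hA.dens n))
    (fun n => lineY_mem (hA.dens n))
    (fun δ hδ => (hy₀.eventually_lt_const hδ).mono fun n hn => ⟨y₀ n, hn.le⟩)
    (fun δ hδ => ((hy₁.eventually_lt_const (show a < a + δ by linarith)).and
      (hy₁.eventually_const_lt (show a - δ < a by linarith))).mono fun n hn =>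
        ⟨⟨y₁ n, hn.2.le⟩, fun t => (hmax n t).trans hn.1.le⟩)
    hA.area_tendsto
    (fun g hg hg0 hg1 δ hδ => (slice_bound hA hz hg hg0 hg1 hδ).mono
      fun n ⟨K, h1, h2, h3⟩ => ⟨K, h1, h2, h3.trans (by linarith)⟩)
    (measurable_marg2 hm) marg2_mem (marg2_periodic hS) ((tendsto_lineY hA hm))
  refine ⟨c, hc.le.trans (le_of_eq ?_)⟩
  have e : ∀ x ∈ uIcc 0 a, (a / 2 * √(1 - (x / a) ^ 2)) ^ 3 =
      (a / 2) ^ 3 * ((1 - (x / a) ^ 2) * √(1 - (x / a) ^ 2)) := fun x hx => by
    rw [uIcc_of_le ha.le] at hx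
    have hp : 0 ≤ 1 - (x / a) ^ 2 :=
      sub_nonneg.2 (pow_le_one₀ (div_nonneg hx.1 ha.le) ((div_le_one ha).2 hx.2))
    rw [mul_pow, pow_succ (√(1 - (x / a) ^ 2)), Real.sq_sqrt hp]
  rw [intervalIntegral.integral_congr e, intervalIntegral.integral_const_mul,
    intervalIntegral.integral_comp_div (fun t => (1 - t ^ 2) * √(1 - t ^ 2)) ha.ne', zero_div,
    div_self ha.ne', integral_semicircle_cube, smul_eq_mul, he]
  ring

end Planar

end

end Vale.Agent.P232.Rigid
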