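import Vale.Agent.P232.Axis

/-!
# P232, rigidity: the variation of a planar density in the two coordinate directions

The two directional variations are dominated together by the total variation; a lower bound for the
lines of one direction and a small value on each of them force a full variation in that direction.
-/

namespace Vale.Agent.P232.Rigid

noncomputable section

open MeasureTheory Set Axis

namespace Planar

/-- The mass of the line at `y` parallel to the second axis. -/
def lineY (m : ℝ × ℝ → ℝ) (y : ℝ) : ℝ := ∫ z in (0 : ℝ)..1, m (y, z)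

/-- The mass of the line at `z` parallel to the first axis. -/
def lineZ (m : ℝ × ℝ → ℝ) (z : ℝ) : ℝ := ∫ y in (0 : ℝ)..1, m (y, z)

/-- The derivative of `lineY`. -/
def lineD (m : ℝ × ℝ → ℝ) (y : ℝ) : ℝ := ∫ z in (0 : ℝ)..1, fderiv ℝ m (y, z) (1, 0)

/-- Half the variation along the first axis. -/
def varY (m : ℝ × ℝ → ℝ) : ℝ := area2 (fun p => |fderiv ℝ m p (1, 0)|) / 2

/-- Half the variation along the second axis. -/
def varZ (m : ℝ × ℝ → ℝ) : ℝ := area2 (fun p => |fderiv ℝ m p (0, 1)|) / 2

variable {m : ℝ × ℝ → ℝ}

lemma continuous_d (hm : Dens2 m) (v : ℝ × ℝ) : Continuous fun p => fderiv ℝ m p v :=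
  (hm.smooth.continuous_fderiv one_ne_zero).clm_apply continuous_const

lemma continuous_defect (hm : Dens2 m) : Continuous fun p => m p * (1 - m p) :=
  hm.smooth.continuous.mul (continuous_const.sub hm.smooth.continuous)

lemma defect2_nonneg (hm : Dens2 m) : 0 ≤ area2 fun p => m p * (1 - m p) :=
  area2_nonneg fun p => mul_nonneg (hm.mem p).1 (sub_nonneg.2 (hm.mem p).2)

lemma continuous_lineY (hm : Dens2 m) : Continuous (lineY m) :=
  intervalIntegral.continuous_parametric_intervalIntegral_of_continuous'
    (f := fun y z => m (y, z)) hm.smooth.continuous 0 1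

lemma continuous_lineZ (hm : Dens2 m) : Continuous (lineZ m) :=
  intervalIntegral.continuous_parametric_intervalIntegral_of_continuous'
    (f := fun z y => m (y, z))
    (hm.smooth.continuous.comp (continuous_snd.prodMk continuous_fst)) 0 1

lemma continuous_lineD (hm : Dens2 m) : Continuous (lineD m) :=
  intervalIntegral.continuous_parametric_intervalIntegral_of_continuous'
    (f := fun y z => fderiv ℝ m (y, z) (1, 0)) (continuous_d hm (1, 0)) 0 1

lemma lineY_mem (hm : Dens2 m) (y : ℝ) : lineY m y ∈ Icc (0 : ℝ) 1 := by
  have hc : Continuous fun z => m (y, z) := hm.smooth.continuous.comp (by fun_prop)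
  refine ⟨intervalIntegral.integral_nonneg zero_le_one fun z _ => (hm.mem _).1, ?_⟩
  simpa [lineY] using intervalIntegral.integral_mono_on zero_le_one (hc.intervalIntegrable 0 1)
    (intervalIntegrable_const (μ := volume) (c := (1 : ℝ))) fun z _ => (hm.mem (y, z)).2

lemma lineY_periodic (hm : Dens2 m) : Function.Periodic (lineY m) 1 := fun y => by
  simp [lineY, (hm.per y _).1]

lemma area2_swap {F : ℝ × ℝ → ℝ} (hF : Continuous F) :
    area2 (fun p => F p.swap) = area2 F := by
  simp only [area2, Prod.swap_prod_mk]
  exact (sq_swap (F := F) hF).symm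

lemma integral_lineY : ∫ y in (0 : ℝ)..1, lineY m y = area2 m := rfl

lemma integral_lineZ (hm : Dens2 m) : ∫ z in (0 : ℝ)..1, lineZ m z = area2 m :=
  area2_swap hm.smooth.continuous

lemma hasDerivAt_lineY (hm : Dens2 m) (y : ℝ) : HasDerivAt (lineY m) (lineD m y) y := by
  have hd := continuous_d hm (1, 0)
  have hline : ∀ z s : ℝ, HasDerivAt (fun s => m (s, z)) (fderiv ℝ m (s, z) (1, 0)) s :=
    fun z s => (hm.smooth.differentiable one_ne_zero (s, z)).hasFDerivAt.comp_hasDerivAt s
      ((hasDerivAt_id s).prodMk (hasDerivAt_const s z))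
  have hint : ∀ s : ℝ, lineY m s = lineY m 0 + ∫ u in (0 : ℝ)..s, lineD m u := fun s => by
    have e : ∫ u in (0 : ℝ)..s, lineD m u = ∫ z in (0 : ℝ)..1, (m (s, z) - m (0, z)) := by
      simp only [lineD]
      rw [integral_swap (G := fun p : ℝ × ℝ => fderiv ℝ m (p.1, p.2) (1, 0)) hd 0 s zero_le_one]
      refine intervalIntegral.integral_congr fun z _ => ?_
      exact intervalIntegral.integral_eq_sub_of_hasDerivAt (fun u _ => hline z u)
        ((hd.comp (continuous_id.prodMk (continuous_const (y := z)))).intervalIntegrable _ _)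
    rw [e, intervalIntegral.integral_sub
      (f := fun z => m (s, z)) (g := fun z => m (0, z))
      ((hm.smooth.continuous.comp (by fun_prop)).intervalIntegrable _ _)
      ((hm.smooth.continuous.comp (by fun_prop)).intervalIntegrable _ _)]
    simp [lineY]
  refine HasDerivAt.congr_of_eventuallyEq ?_ (Filter.Eventually.of_forall hint)
  exact ((continuous_lineD hm).integral_hasStrictDerivAt 0 y).hasDerivAt.const_add _

lemma integral_abs_lineD_le (hm : Dens2 m) : ∫ y in (0 : ℝ)..1, |lineD m y| ≤ 2 * varY m := by
  have hd : Continuous fun p => |fderiv ℝ m p (1, 0)| := (continuous_d hm _).abs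
  rw [varY, mul_div_cancel₀ _ two_ne_zero]
  exact intervalIntegral.integral_mono_on zero_le_one
    ((continuous_lineD hm).abs.intervalIntegrable _ _)
    ((continuous_inner hd).intervalIntegrable _ _) fun y _ =>
      intervalIntegral.abs_integral_le_integral_abs zero_le_one

lemma varY_nonneg : 0 ≤ varY m := div_nonneg (area2_nonneg fun _ => abs_nonneg _) zero_le_two

lemma varZ_nonneg : 0 ≤ varZ m := div_nonneg (area2_nonneg fun _ => abs_nonneg _) zero_le_two

/-- The two directions share the total variation. -/
lemma sqrt_var_le (hm : Dens2 m) : √(varY m ^ 2 + varZ m ^ 2) ≤ tv2 m / 2 := by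
  have h := sqrt_le_area2 (continuous_d hm (1, 0)).abs (continuous_d hm (0, 1)).abs
  simp only [sq_abs] at h
  have e : tv2 m = area2 fun q => √(fderiv ℝ m q (1, 0) ^ 2 + fderiv ℝ m q (0, 1) ^ 2) := rfl
  rw [varY, varZ, div_pow, div_pow, ← add_div, Real.sqrt_div (by positivity),
    Real.sqrt_sq zero_le_two, e]
  linarith

/-- A line along the first axis runs twice through its oscillation. -/
lemma lineVar_ge (hm : Dens2 m) (z y₁ y₂ : ℝ) :
    m (y₂, z) - m (y₁, z) ≤ (∫ y in (0 : ℝ)..1, |fderiv ℝ m (y, z) (1, 0)|) / 2 := by
  have hd : ∀ y, HasDerivAt (fun y => m (y, z)) (fderiv ℝ m (y, z) (1, 0)) y := fun y =>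
    (hm.smooth.differentiable one_ne_zero (y, z)).hasFDerivAt.comp_hasDerivAt y
      ((hasDerivAt_id y).prodMk (hasDerivAt_const y z))
  have h := line_osc (g := fun y => m (y, z)) (hm.smooth.comp (contDiff_id.prodMk contDiff_const))
    (fun y => (hm.per y z).1) y₁ y₂
  simp only [fun y => (hd y).deriv] at h
  linarith

/-- A line along the second axis runs twice through its oscillation. -/
lemma lineVar_ge' (hm : Dens2 m) (y z₁ z₂ : ℝ) :
    m (y, z₂) - m (y, z₁) ≤ (∫ z in (0 : ℝ)..1, |fderiv ℝ m (y, z) (0, 1)|) / 2 := by
  have hd : ∀ z, HasDerivAt (fun z => m (y, z)) (fderiv ℝ m (y, z) (0, 1)) z := fun z =>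
    (hm.smooth.differentiable one_ne_zero (y, z)).hasFDerivAt.comp_hasDerivAt z
      ((hasDerivAt_const z y).prodMk (hasDerivAt_id z))
  have h := line_osc (g := fun z => m (y, z)) (hm.smooth.comp (contDiff_const.prodMk contDiff_id))
    (fun z => (hm.per y z).2) z₁ z₂
  simp only [fun z => (hd z).deriv] at h
  linarith

/-- If every line along the first axis has mass at least `g` and a point below `low`, the variation
in that direction is at least one, up to the defect and the mean of `low`. -/
lemma varY_ge (hm : Dens2 m) {g : ℝ} (hg : 0 < g) (hlb : ∀ z, g ≤ lineZ m z) {low : ℝ → ℝ}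
    (hlow : Continuous low) (hl : ∀ z, ∃ y, m (y, z) ≤ low z) :
    1 - area2 (fun p => m p * (1 - m p)) / g - ∫ z in (0 : ℝ)..1, low z ≤ varY m := by
  set e : ℝ → ℝ := fun z => ∫ y in (0 : ℝ)..1, m (y, z) * (1 - m (y, z)) with he
  set T : ℝ → ℝ := fun z => (∫ y in (0 : ℝ)..1, |fderiv ℝ m (y, z) (1, 0)|) / 2 with hT
  have hc := hm.smooth.continuous
  have hec : Continuous e := intervalIntegral.continuous_parametric_intervalIntegral_of_continuous'
    (f := fun z y => m (y, z) * (1 - m (y, z)))
    ((continuous_defect hm).comp (continuous_snd.prodMk continuous_fst)) 0 1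
  have hTc : Continuous T :=
    (intervalIntegral.continuous_parametric_intervalIntegral_of_continuous'
      (f := fun z y => |fderiv ℝ m (y, z) (1, 0)|)
      ((continuous_d hm _).abs.comp (continuous_snd.prodMk continuous_fst)) 0 1).div_const 2
  have hpt : ∀ z, 1 - e z / g - low z ≤ T z := fun z => by
    obtain ⟨y₂, hy₂⟩ := hl z
    have hline : Continuous fun y => m (y, z) := hc.comp (by fun_prop)
    obtain ⟨y₁, -, hmax⟩ := isCompact_Icc.exists_isMaxOn (nonempty_Icc.2 zero_le_one)
      hline.continuousOn
    have hM : (1 - m (y₁, z)) * lineZ m z ≤ e z := by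
      rw [lineZ, ← intervalIntegral.integral_const_mul]
      refine intervalIntegral.integral_mono_on zero_le_one
        ((continuous_const.mul hline).intervalIntegrable _ _)
        ((hline.mul (continuous_const.sub hline)).intervalIntegrable _ _) fun y hy => ?_
      rw [mul_comm]
      have := hmax hy
      exact mul_le_mul_of_nonneg_left
        (by linarith [show m (y, z) ≤ m (y₁, z) from this]) (hm.mem _).1
    have h1 : 1 - m (y₁, z) ≤ e z / g := by
      rw [le_div_iff₀ hg]
      exact le_trans (mul_le_mul_of_nonneg_left (hlb z) (sub_nonneg.2 (hm.mem _).2)) hM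
    have := lineVar_ge hm z y₂ y₁
    simp only [hT]
    linarith
  have h := intervalIntegral.integral_mono_on (μ := volume) (f := fun z => 1 - e z / g - low z)
    zero_le_one (((continuous_const.sub (hec.div_const g)).sub hlow).intervalIntegrable 0 1)
    (hTc.intervalIntegrable 0 1) fun z _ => hpt z
  rw [intervalIntegral.integral_sub (f := fun z => 1 - e z / g)
      ((continuous_const.sub (hec.div_const g)).intervalIntegrable _ _)
      (hlow.intervalIntegrable _ _),
    intervalIntegral.integral_sub (f := fun _ => (1 : ℝ)) (g := fun z => e z / g)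
      intervalIntegrable_const ((hec.div_const g).intervalIntegrable _ _),
    intervalIntegral.integral_div, intervalIntegral.integral_const, sub_zero, one_smul] at h
  have e1 : ∫ z in (0 : ℝ)..1, e z = area2 fun p => m p * (1 - m p) :=
    area2_swap (continuous_defect hm)
  have e2 : ∫ z in (0 : ℝ)..1, T z = varY m := by
    simp only [hT, varY, intervalIntegral.integral_div]
    exact congrArg (· / 2) (area2_swap (continuous_d hm (1, 0)).abs)
  rwa [e1, e2] at h

/-- The low point of a line given by a fixed line of the other direction. -/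
lemma varY_ge_of_line (hm : Dens2 m) {g : ℝ} (hg : 0 < g) (hlb : ∀ z, g ≤ lineZ m z) (y₀ : ℝ) :
    1 - area2 (fun p => m p * (1 - m p)) / g - lineY m y₀ ≤ varY m :=
  varY_ge hm hg hlb (low := fun z => m (y₀, z)) (hm.smooth.continuous.comp (by fun_prop))
    fun z => ⟨y₀, le_rfl⟩

/-- The low point of a line that is not full. -/
lemma varY_ge_of_lt (hm : Dens2 m) {g b : ℝ} (hg : 0 < g) (hb : b < 1) (hlb : ∀ z, g ≤ lineZ m z)
    (hub : ∀ z, lineZ m z ≤ b) :
    1 - area2 (fun p => m p * (1 - m p)) / g - area2 (fun p => m p * (1 - m p)) / (1 - b)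
      ≤ varY m := by
  have hc := hm.smooth.continuous
  set e : ℝ → ℝ := fun z => ∫ y in (0 : ℝ)..1, m (y, z) * (1 - m (y, z))
  have hec : Continuous e := intervalIntegral.continuous_parametric_intervalIntegral_of_continuous'
    (f := fun z y => m (y, z) * (1 - m (y, z)))
    ((continuous_defect hm).comp (continuous_snd.prodMk continuous_fst)) 0 1
  have hb' : 0 < 1 - b := sub_pos.2 hb
  have h := varY_ge hm hg hlb (hec.div_const (1 - b)) fun z => by
    have hline : Continuous fun y => m (y, z) := hc.comp (by fun_prop)
    obtain ⟨y₁, -, hmin⟩ := isCompact_Icc.exists_isMinOn (nonempty_Icc.2 zero_le_one)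
      hline.continuousOn
    refine ⟨y₁, ?_⟩
    rw [le_div_iff₀ hb']
    refine le_trans (mul_le_mul_of_nonneg_left
      (show 1 - b ≤ ∫ y in (0 : ℝ)..1, (1 - m (y, z)) from ?_) (hm.mem _).1) ?_
    · rw [intervalIntegral.integral_sub intervalIntegrable_const (hline.intervalIntegrable _ _)]
      have := hub z
      simp only [lineZ] at this
      simp only [intervalIntegral.integral_const, sub_zero, one_smul]
      linarith
    · rw [← intervalIntegral.integral_const_mul]
      exact intervalIntegral.integral_mono_on zero_le_one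
        ((continuous_const.mul (continuous_const.sub hline)).intervalIntegrable _ _)
        ((hline.mul (continuous_const.sub hline)).intervalIntegrable _ _) fun y hy =>
          mul_le_mul_of_nonneg_right (hmin hy) (sub_nonneg.2 (hm.mem _).2)
  rwa [intervalIntegral.integral_div, show ∫ z in (0 : ℝ)..1, e z = _ from
    area2_swap (continuous_defect hm)] at h

/-- Without variation along the second axis the density is its line mean. -/
lemma area2_sub_lineY_le (hm : Dens2 m) :
    area2 (fun p => |m p - lineY m p.1|) ≤ varZ m := by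
  have hd : Continuous fun p => |fderiv ℝ m p (0, 1)| := (continuous_d hm _).abs
  have hc := hm.smooth.continuous
  rw [varZ, area2, area2, ← intervalIntegral.integral_div]
  refine intervalIntegral.integral_mono_on zero_le_one
    ((continuous_inner (hc.sub ((continuous_lineY hm).comp continuous_fst)).abs).intervalIntegrable _ _)
    (((continuous_inner hd).div_const 2).intervalIntegrable _ _) fun y _ => ?_
  have hline : Continuous fun z => m (y, z) := hc.comp (by fun_prop)
  set T := (∫ z in (0 : ℝ)..1, |fderiv ℝ m (y, z) (0, 1)|) / 2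
  have hpt : ∀ z, |m (y, z) - lineY m y| ≤ T := fun z => by
    have e : m (y, z) - lineY m y = ∫ z' in (0 : ℝ)..1, (m (y, z) - m (y, z')) := by
      rw [intervalIntegral.integral_sub intervalIntegrable_const (hline.intervalIntegrable _ _)]
      simp [lineY]
    rw [e]
    refine (intervalIntegral.abs_integral_le_integral_abs zero_le_one).trans ?_
    refine (intervalIntegral.integral_mono_on zero_le_one
      ((continuous_const.sub hline).abs.intervalIntegrable _ _) intervalIntegrable_const
      fun z' _ => abs_sub_le_iff.2 ⟨lineVar_ge' hm y z' z, lineVar_ge' hm y z z'⟩).trans ?_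
    simp [T]
  simpa using intervalIntegral.integral_mono_on (μ := volume) (g := fun _ => T) zero_le_one
    ((hline.sub (continuous_const (y := lineY m y))).abs.intervalIntegrable 0 1)
    intervalIntegrable_const fun z _ => hpt z

end Planar

end

end Vale.Agent.P232.Rigid
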